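import Vale.Agent.P281.H713.KD.Iface

/-! P281, log canonical pairs with ONE system of sections of `m (K_X + Δ)` (coefficients `≤ 1`): the
analytic blocks, as propositions.  The metrics `ω = G + i∂∂̄U` have the volume form
`exp φ (ρ + δ)^(1/m) ∏ (r i + ε)^(-(1-η) Δ i)`; the errors are `O(η)`, and they need not be compared
with the volume of the regular part, because of block LC-CONS. -/

open scoped Manifold ContDiff Topology ComplexOrder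
open Set Filter Vale.Agent.P281.J Vale.Agent.P272.K Vale.Agent.P272.K.AMP Vale.Agent.P299
open Vale.Agent.P299.H882 (J xi qf)
open Vale.Agent.P272.K.INT (IsClosedForm)

set_option linter.all false

noncomputable section

namespace Vale.Agent.P281.H167.LC

open Vale.Agent.P281.H713 Vale.Agent.P281.H713.SA Vale.Agent.P281.H713.KD Vale.Agent.P281.H716
open Vale.Agent.P281.H167.GM (mixX addF phiD)

/-- **Row LC1 (Bochner, `K i ≤ μ Δ i`, exponents `(1-η) Δ i` in the volume form).** -/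
def BochPartE : Prop := ∀ (n M : ℕ) (X : Type) [TopologicalSpace X] [T2Space X] [CompactSpace X]
  [ConnectedSpace X] [ChartedSpace (Cm n) X] [IsManifold 𝓘(ℂ, Cm n) ω X]
  (χ : D.FormM n X) (_ : IsKahler χ) (φ : Chart n X → Cm n → ℝ) (_ : IsCanonicalMetric φ)
  (m : ℕ) (_ : 0 < m) (ρ : X → ℝ) (_ : SmoothFn (n := n) ρ) (_ : ∀ x, 0 ≤ ρ x)
  (Dv : Fin M → Set X) (r : Fin M → X → ℝ) (R : Fin M → D.FormM n X)
  (_ : IsBd Dv r R) (dl : Fin M → ℝ) (_ : ∀ i, 0 ≤ dl i) (C : ℝ) (_ : 0 ≤ C)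
  (_ : CurvKGe φ m ρ dl R C χ) (p μ : ℕ) (K : Fin M → ℕ) (_ : ∀ i, (K i : ℝ) ≤ μ * dl i)
  (N₀ N₁ : D.FormM n X → X → ℝ) (_ : IsDecPair Dv r χ p μ K N₀ N₁),
  ∃ C₂ : ℝ, 0 ≤ C₂ ∧ ∀ a : ℝ, 0 < a →
  ∃ C' : ℝ, 0 ≤ C' ∧ ∀ (β : X → ℝ), Continuous β → (∀ x, 0 ≤ β x) →
    (∀ x, N₀ χ x + N₁ χ x < a → 1 ≤ β x) → ∀ δ ε η : ℝ, 0 < δ → 0 < ε → ε ≤ 1 → 0 ≤ η →
    ∀ (g : D.FormM n X) (c : ℝ), IsKahler g →
      (∀ e x, At e x → Real.log (g e (e x)).det.re =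
        phiK φ m ρ δ (fun i => (1 - η) * dl i) r ε e (e x) + c) →
      ∀ N : D.FormM n X → X → ℝ, N = N₀ ∨ N = N₁ →
      BochF g (fun x => μ * (trX g (curvK φ m ρ δ dl R) x + C * (δ / (ρ x + δ)) * trX g χ x) +
        C' * ∑ i, ε / (r i x + ε) * trX g χ x +
        β x * (∑ i, if K i = 0 then 0 else K i * (trX g (dF (r i) (R i) ε) x + C₂ * trX g χ x)) +
        μ * ∑ i, η * dl i * (trX g (dF (r i) (R i) ε) x + C₂ * trX g χ x))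
        (fun x => N g x * ∏ i, (r i x + ε)⁻¹ ^ K i)

/-- **Row LC2 (metrics)**: one metric in the class of `β + s θ + t χ` with small total curvature. -/
def StepPartE : Prop := ∀ (n M : ℕ) (X : Type) [TopologicalSpace X] [T2Space X] [CompactSpace X]
  [ConnectedSpace X] [ChartedSpace (Cm n) X] [IsManifold 𝓘(ℂ, Cm n) ω X]
  (χ : D.FormM n X) (_ : IsKahler χ) (φ : Chart n X → Cm n → ℝ) (_ : IsCanonicalMetric φ)
  (m : ℕ) (_ : 0 < m) (ρ : X → ℝ) (_ : SmoothFn (n := n) ρ) (_ : ∀ x, 0 ≤ ρ x)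
  (Dv : Fin M → Set X) (r : Fin M → X → ℝ) (R : Fin M → D.FormM n X)
  (_ : IsBd Dv r R) (dl : Fin M → ℝ) (_ : ∀ i, 0 ≤ dl i ∧ dl i ≤ 1) (C : ℝ) (_ : 0 ≤ C)
  (_ : CurvKGe φ m ρ dl R C χ) (θ β : D.FormM n X) (_ : IsClosedForm θ) (_ : IsClosedForm β)
  (_ : ∀ e x, At e x → (θ e (e x)).PosSemidef) (_ : ∀ e x, At e x → (β e (e x)).PosSemidef)
  (p μ : ℕ) (K : Fin M → ℕ) (_ : ∀ i, (K i : ℝ) ≤ μ * dl i)
  (N₀ N₁ : D.FormM n X → X → ℝ) (_ : IsDecPair Dv r χ p μ K N₀ N₁) (x₀ : X) (_ : 0 < ρ x₀)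
  (_ : 0 < N₀ χ x₀) (s t : ℝ) (_ : 0 ≤ s) (_ : 0 < t) (κ : ℝ) (_ : 0 < κ),
  ∃ U τ w : X → ℝ, SmoothFn (n := n) U ∧ IsKahler (addH (addF (addF β s θ) t χ) U) ∧
    Continuous τ ∧ (∀ x, 0 ≤ τ x) ∧ SmoothFn (n := n) w ∧ (∀ x, 0 < w x) ∧
    (∀ N : D.FormM n X → X → ℝ, N = N₀ ∨ N = N₁ →
      BochF (addH (addF (addF β s θ) t χ) U) τ
        (fun x => N (addH (addF (addF β s θ) t χ) U) x * w x)) ∧
    J (addH (addF (addF β s θ) t χ) U) τ ≤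
      μ * mixX (addF (addF β s θ) t χ) (clsK φ dl R) + κ

/-- **Row LC3 (conservation of the mass of `i∂∂̄v` off `{h = 0}`)**. -/
def ConsPart : Prop := ∀ (n : ℕ) (X : Type) [TopologicalSpace X] [T2Space X] [CompactSpace X]
  [ConnectedSpace X] [ChartedSpace (Cm n) X] [IsManifold 𝓘(ℂ, Cm n) ω X]
  (G : D.FormM n X) (_ : IsKahler G) (U : X → ℝ) (_ : SmoothFn (n := n) U)
  (_ : IsKahler (addH G U)) (h : X → ℝ) (_ : SmoothFn (n := n) h) (_ : ∀ x, 0 ≤ h x) (C : ℝ)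
  (_ : ∀ ε : ℝ, 0 < ε → ε ≤ 1 → ∀ e x, At e x →
    (hess (fun y => Real.log (h y + ε)) e (e x) + (C : ℂ) • G e (e x)).PosSemidef)
  (v : X → ℝ) (_ : ∀ (e : Chart n X) x, At e x → 0 < h x → ContDiffAt ℝ ∞ (fun z => v (e.symm z)) (e x) ∧
    (hess v e (e x)).PosSemidef) (η : X → ℝ) (_ : Continuous η) (_ : ∀ x, η x ∈ Icc (0 : ℝ) 1)
  (_ : ∀ x ∈ tsupport η, 0 < h x) (ε : ℝ) (_ : 0 < ε) (_ : ε < 1),
  ∃ ψ : X → ℝ, SmoothFn (n := n) ψ ∧ (∀ x, ψ x ∈ Icc (0 : ℝ) 1) ∧ (∀ x ∈ tsupport ψ, 0 < h x) ∧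
    (1 - ε) ^ n * J G (fun x => η x * lapX G v x) ≤
      J (addH G U) (fun x => ψ x * lapX (addH G U) v x)

/-- **Row LC4 (the mass of `i∂∂̄ log (1 + S₁/S₀)`)**. -/
def MassLe : Prop := ∀ (n : ℕ) (X : Type) [TopologicalSpace X] [T2Space X] [CompactSpace X]
  [ConnectedSpace X] [ChartedSpace (Cm n) X] [IsManifold 𝓘(ℂ, Cm n) ω X]
  (g : D.FormM n X) (_ : IsKahler g) (S₀ S₁ τ v : X → ℝ) (_ : SmoothFn (n := n) S₀)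
  (_ : SmoothFn (n := n) S₁) (_ : ∀ x, 0 ≤ S₀ x) (_ : ∀ x, 0 ≤ S₁ x) (_ : Continuous τ)
  (_ : ∀ x, 0 ≤ τ x) (_ : BochF g τ S₀) (_ : BochF g τ S₁)
  (_ : ∀ x, 0 < S₀ x → v x = Real.log (1 + S₁ x / S₀ x))
  (_ : ∀ (e : Chart n X) x, At e x → 0 < S₀ x → (hess v e (e x)).PosSemidef)
  (ψ : X → ℝ) (_ : SmoothFn (n := n) ψ) (_ : ∀ x, ψ x ∈ Icc (0 : ℝ) 1)
  (_ : ∀ x ∈ tsupport ψ, 0 < S₀ x), J g (fun x => ψ x * lapX g v x) ≤ J g τ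

/-- **Block LC-CORE**: `CorePartK` with coefficients `≤ 1`. -/
def CorePartC : Prop := ∀ (n M : ℕ) (X : Type) [TopologicalSpace X] [T2Space X] [CompactSpace X]
  [ConnectedSpace X] [ChartedSpace (Cm n) X] [IsManifold 𝓘(ℂ, Cm n) ω X]
  (χ : D.FormM n X) (_ : IsKahler χ) (φ : Chart n X → Cm n → ℝ) (_ : IsCanonicalMetric φ)
  (m : ℕ) (_ : 0 < m) (ρ : X → ℝ) (_ : SmoothFn (n := n) ρ) (_ : ∀ x, 0 ≤ ρ x)
  (Dv : Fin M → Set X) (r : Fin M → X → ℝ) (R : Fin M → D.FormM n X)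
  (_ : IsBd Dv r R) (dl : Fin M → ℝ) (_ : ∀ i, 0 ≤ dl i ∧ dl i ≤ 1) (C : ℝ)
  (_ : CurvKGe φ m ρ dl R C χ) (θ β : D.FormM n X) (_ : IsClosedForm θ) (_ : IsClosedForm β)
  (_ : ∀ e x, At e x → (θ e (e x)).PosSemidef) (_ : ∀ e x, At e x → (β e (e x)).PosSemidef)
  (ν : ℕ) (C₁ : ℝ) (_ : ∃ᶠ s : ℝ in atTop, mixX (addF β s θ) (clsK φ dl R) ≤ C₁ * s ^ ν / s)
  (p μ : ℕ) (K : Fin M → ℕ) (_ : ∀ i, (K i : ℝ) ≤ μ * dl i)
  (N₀ N₁ : D.FormM n X → X → ℝ) (_ : IsDecPair Dv r χ p μ K N₀ N₁)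
  (_ : IsHolNorm (n := n) fun x => N₀ χ x + N₀ χ x)
  (u : X → ℝ) (_ : ∀ g x, IsKahler g → 0 < N₀ g x → 0 < N₁ g x →
    u x = Real.log (N₁ g x) - Real.log (N₀ g x))
  (e : Chart n X) (x : X) (_ : At e x) (_ : 0 < N₀ χ x) (_ : 0 < N₁ χ x) (_ : 0 < ρ x)
  (_ : ∀ i, 0 < r i x) (_ : (β e (e x)).PosDef) (_ : (θ e (e x)).rank = ν) (v : Cm n)
  (_ : ∀ j, ∑ i, v i * θ e (e x) i j = 0),
  ∑ i, xi u e (e x) i * v i = 0

end Vale.Agent.P281.H167.LC
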