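import Vale.Agent.P281.H167.LC.Lap
import Vale.Agent.P281.H156.KD.Core

/-! P281, LC: block LC-CORE. -/

open scoped Manifold ContDiff ComplexOrder Topology
open Complex Set Filter MeasureTheory

set_option linter.all false

noncomputable section

namespace Vale.Agent.P281.H167.LC

open Vale.Agent.P272.K Vale.Agent.P272.K.AMP Vale.Agent.P299.D Vale.Agent.P299 Vale.Agent.P299.H882
open Vale.Agent.P281.H167.SA Vale.Agent.P281.H167.GM Vale.Agent.P281.H713.KD
open Vale.Agent.P281.H413.MFS Vale.Agent.P281.H156.KD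
open INT (IsDensity intX IsClosedForm)

/-- **Block LC-CORE** -/
theorem corePartC (eps : EpsPart) (bd : BdPart) (step : StepPartE) (cons : ConsPart)
    (mass : MassLe) : CorePartC := by
  intro n M X _ _ _ _ _ _ χ hχ φ hφ m hm ρ hρ h0 Dv r R hbd dl hdl C hC θ β hθ hβ hθ0 hβ0 ν C₁ hgr p
    μ K hK N₀ N₁ hN hN0 u hu e x hx hx0 hx1 hρx hrx hP hrk v hv
  by_contra hne
  haveI : Nonempty X := ⟨x⟩
  have hχ0 : ∀ e x, At e x → (χ e (e x)).PosSemidef := fun e x hx => (hχ.posDef e x hx).posSemidef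
  have hC' : CurvKGe φ m ρ dl R (max C 0) χ := CurvKGe.mono h0 hC (le_max_left _ _) hχ0
  have hCp : 0 ≤ max C 0 := le_max_right _ _
  have hχH := hχ.toIsHermitian
  have hu' : ∀ x, 0 < N₀ χ x → 0 < N₁ χ x → u x = Real.log (N₁ χ x) - Real.log (N₀ χ x) :=
    fun x a b => hu χ x hχ a b
  -- the open sets
  have c0' := sm_continuous (hN.smooth χ hχ).1
  have c1' := sm_continuous (hN.smooth χ hχ).2
  set V₀ : Set X := {x | 0 < N₀ χ x} with hV₀def
  have hV₀ : IsOpen V₀ := isOpen_lt continuous_const c0'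
  set V : Set X := {x | 0 < N₀ χ x ∧ 0 < N₁ χ x} with hVdef
  have hV : IsOpen V := (isOpen_lt continuous_const c0').inter (isOpen_lt continuous_const c1')
  have hxV : x ∈ V := ⟨hx0, hx1⟩
  have hvs : ∀ (e : Chart n X) y, At e y → y ∈ V₀ →
      ContDiffAt ℝ ∞ (fun z => vN χ N₀ N₁ (e.symm z)) (e y) := fun e y hy hyV =>
    smooth_vN hχ hN e y hy hyV
  -- continuity of `u` on `V`
  have husm : ∀ (e' : Chart n X) y, At e' y → y ∈ V →
      ContDiffAt ℝ ∞ (fun z => u (e'.symm z)) (e' y) := fun e' y hy hyV =>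
    smooth_uN hχ hN hu' e' y hy hyV.1 hyV.2
  have hucont : ContinuousOn u V := by
    intro y hy
    have hy' := at_chartAt (n := n) y
    have h1 := (husm _ y hy' hy).continuousAt
    have h2 : ContinuousAt (fun y' => u ((chartAt (Cm n) y).symm (chartAt (Cm n) y y'))) y :=
      h1.comp (f := chartAt (Cm n) y) ((chartAt (Cm n) y).continuousAt hy'.2)
    refine (h2.congr ?_).continuousWithinAt
    filter_upwards [(chartAt (Cm n) y).open_source.mem_nhds hy'.2] with y' hy''
    rw [(chartAt (Cm n) y).left_inv hy'']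
  have hxic : ∀ i, ContinuousAt (fun z => xi u e z i) (e x) := fun i =>
    (contDiffAt_dz (m := 0) (r := 1) ((ofReal_contDiffAt (husm e x hx hxV)).of_le
      (by norm_cast)) (by simp)).continuousAt
  obtain ⟨d0, hd0, hlow⟩ := lower_boundL hθ hβ hθ0 hβ0 hχ hχ hx hP hxic v hv hne
  rw [hrk] at hlow
  -- the neighbourhood `N` of `x`
  obtain ⟨N, hNN, hNo, hxN⟩ := mem_nhds_iff.1 (hlow.and (hV.mem_nhds hxV))
  obtain ⟨η, hηs, hη1, hη01⟩ := exists_tsupport_one_of_isOpen_isClosed hNo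
    isClosed_closure.isCompact isClosed_singleton (Set.singleton_subset_iff.2 hxN)
  have hηx : η x = 1 := hη1 rfl
  have hKc : IsCompact (tsupport η) := (isClosed_tsupport η).isCompact
  have hKV : ∀ y ∈ tsupport η, y ∈ V := fun y hy => (hNN (hηs hy)).2
  obtain ⟨Cu, hCu⟩ := hKc.exists_bound_of_continuousOn (hucont.mono hKV)
  have hηc : Continuous fun y => η y := η.continuous
  have hIη : 0 < H882.J χ (fun y => η y) :=
    J_pos_of hχH hηc (fun y => (hη01 y).1) (x := x) (by rw [hηx]; exact one_pos)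
  set H := H882.J χ (fun y => η y) with hH
  set c2 : ℝ := Real.exp (-Cu) / (1 + Real.exp Cu) ^ 2 with hc2
  have hc2p : 0 < c2 := by positivity
  have hc2le : ∀ y ∈ tsupport η, c2 ≤ Real.exp (u y) / (1 + Real.exp (u y)) ^ 2 := by
    intro y hy
    have h1 := hCu y hy
    rw [Real.norm_eq_abs] at h1
    obtain ⟨h2, h3⟩ := abs_le.1 h1
    rw [hc2]
    refine div_le_div₀ (Real.exp_pos _).le (Real.exp_le_exp.2 h2) (by positivity) ?_
    have h4 := Real.exp_le_exp.2 h3
    have h5 := Real.exp_pos (u y)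
    gcongr
  -- the quasi-plurisubharmonic function
  set c3 : ℝ := (1 - 1 / 2) ^ n with hc3
  have hc3p : 0 < c3 := by rw [hc3]; positivity
  set a0 : ℝ := c3 * (c2 * d0 * H) with ha0
  have ha0p : 0 < a0 := by positivity
  -- the estimate for `t > 0`
  have step1 : ∀ s t : ℝ, 0 < s → 0 < t →
      a0 * s ^ ν ≤ μ * mixX (addF (addF β s θ) t χ) (clsK φ dl R) := by
    intro s t hs ht
    refine le_of_forall_pos_le_add fun κ hκ => ?_
    have hG : IsKahler (addF (addF β s θ) t χ) := isKahler_G hχ hθ hβ hθ0 hβ0 hs.le ht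
    have hGH := hG.toIsHermitian
    obtain ⟨U, τ, w, hU, hg, cτ, hτ0, hw, hw0, hB, hJ⟩ := step n M X χ hχ φ hφ m hm ρ hρ h0 Dv r R hbd
      dl hdl _ hCp hC' θ β hθ hβ hθ0 hβ0 p μ K hK N₀ N₁ hN x hρx hx0 s t hs.le ht κ hκ
    set G : D.FormM n X := addF (addF β s θ) t χ with hGdef
    set g : D.FormM n X := addH G U with hgdef
    have hgH := hg.toIsHermitian
    obtain ⟨-, -, hq⟩ := bd n M X G hG Dv r R hbd
    obtain ⟨hhs, Ch, hCh, hqh⟩ := hq _ hN0
    have hpos : ∀ y, 0 < N₀ χ y + N₀ χ y ↔ y ∈ V₀ := fun y =>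
      ⟨fun h => by show 0 < N₀ χ y; linarith, fun h => by
        have : 0 < N₀ χ y := h
        linarith⟩
    obtain ⟨ψ, hψ, hψ01, hψs, hcons⟩ := cons n X G hG U hU hg (fun y => N₀ χ y + N₀ χ y) hhs
      (fun y => by have := (hN.nonneg χ y hχ).1; linarith) Ch hqh (vN χ N₀ N₁)
      (fun e y hy hyp => ⟨hvs e y hy ((hpos y).1 hyp), psd_vN hχ hN hy ((hpos y).1 hyp)⟩)
      (fun y => η y) hηc (fun y => ⟨(hη01 y).1, (hη01 y).2⟩)
      (fun y hy => (hpos y).2 (hKV y hy).1) (1 / 2) (by norm_num) (by norm_num)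
    -- the upper bound
    have hup : H882.J g (fun x => ψ x * lapX g (vN χ N₀ N₁) x) ≤ H882.J g τ := by
      have hS0 : ∀ y, 0 < N₀ g y * w y ↔ 0 < N₀ χ y := by
        intro y
        rw [← (hN.pos g y hg).1]
        exact ⟨fun h => pos_of_mul_pos_left h (hw0 y).le, fun h => mul_pos h (hw0 y)⟩
      refine mass n X g hg (fun y => N₀ g y * w y) (fun y => N₁ g y * w y) τ (vN χ N₀ N₁)
        (fun e y hy => ((hN.smooth g hg).1 e y hy).mul (hw e y hy))
        (fun e y hy => ((hN.smooth g hg).2 e y hy).mul (hw e y hy))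
        (fun y => mul_nonneg (hN.nonneg g y hg).1 (hw0 y).le)
        (fun y => mul_nonneg (hN.nonneg g y hg).2 (hw0 y).le) cτ hτ0 (hB N₀ (Or.inl rfl))
        (hB N₁ (Or.inr rfl)) ?_ ?_ ψ hψ hψ01 ?_
      · intro y hy
        have hy0 : 0 < N₀ χ y := (hS0 y).1 hy
        have hg0 : 0 < N₀ g y := (hN.pos g y hg).1.2 hy0
        unfold vN
        congr 2
        have hwy := (hw0 y).ne'
        rw [mul_div_mul_right _ _ hwy]
        by_cases h1 : 0 < N₁ χ y
        · have hg1 : 0 < N₁ g y := (hN.pos g y hg).2.2 h1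
          have e1 := hu χ y hχ hy0 h1
          have e2 := hu g y hg hg0 hg1
          have e3 : Real.exp (Real.log (N₁ χ y) - Real.log (N₀ χ y)) =
              Real.exp (Real.log (N₁ g y) - Real.log (N₀ g y)) := by rw [← e1, ← e2]
          rw [Real.exp_sub, Real.exp_sub, Real.exp_log h1, Real.exp_log hy0, Real.exp_log hg1,
            Real.exp_log hg0] at e3
          exact e3
        · have z1 : N₁ χ y = 0 := le_antisymm (not_lt.1 h1) (hN.nonneg χ y hχ).2
          have z2 : N₁ g y = 0 := by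
            refine le_antisymm (not_lt.1 fun h => h1 ?_) (hN.nonneg g y hg).2
            exact (hN.pos g y hg).2.1 h
          rw [z1, z2, zero_div, zero_div]
      · intro e y hy hy'
        exact psd_vN hχ hN hy ((hS0 y).1 hy')
      · intro y hy
        exact (hS0 y).2 ((hpos y).1 (hψs y hy))
    -- the lower bound
    have hlo : c2 * d0 * s ^ ν * H ≤ H882.J G (fun x => η x * lapX G (vN χ N₀ N₁) x) := by
      rw [← J_detR hGH hχH, hH, ← J_const_mul]
      have k1 : Continuous fun y => c2 * d0 * s ^ ν * η y := continuous_const.mul hηc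
      have k2 : Continuous fun y => η y * lapX G (vN χ N₀ N₁) y * detR G χ y :=
        (cont_mul_lap hGH hV₀ hvs hηc fun y hy => (hKV y hy).1).mul
          (sm_continuous (smoothFn_detR hGH hχH))
      refine J_mono hχH k1 k2 fun y => ?_
      by_cases hy : y ∈ tsupport η
      · obtain ⟨⟨hyA, hyl⟩, hyV⟩ := hNN (hηs hy)
        have h1 := hyl s t hs.le ht.le
        have h2 := hc2le y hy
        have h3 := (hη01 y).1
        rw [lap_vN hχ hN hu' hGH hyA hyV.1 hyV.2, detR_eq hGH hχH hyA]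
        have h4 : c2 * (d0 * s ^ ν) ≤ Real.exp (u y) / (1 + Real.exp (u y)) ^ 2 *
            (qf (G e (e y)) (xi u e (e y)) * ((G e (e y)).det.re / (χ e (e y)).det.re)) :=
          mul_le_mul h2 h1 (by positivity) (by positivity)
        calc c2 * d0 * s ^ ν * η y = η y * (c2 * (d0 * s ^ ν)) := by ring
          _ ≤ η y * (Real.exp (u y) / (1 + Real.exp (u y)) ^ 2 *
            (qf (G e (e y)) (xi u e (e y)) * ((G e (e y)).det.re / (χ e (e y)).det.re))) :=
              mul_le_mul_of_nonneg_left h4 h3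
          _ = _ := by ring
      · rw [image_eq_zero_of_notMem_tsupport hy]
        simp
    calc a0 * s ^ ν = c3 * (c2 * d0 * s ^ ν * H) := by rw [ha0]; ring
      _ ≤ c3 * H882.J G (fun x => η x * lapX G (vN χ N₀ N₁) x) :=
          mul_le_mul_of_nonneg_left hlo hc3p.le
      _ ≤ H882.J g (fun x => ψ x * lapX g (vN χ N₀ N₁) x) := hcons
      _ ≤ H882.J g τ := hup
      _ ≤ _ := hJ
  -- `t → 0`
  have step2 : ∀ s : ℝ, 0 < s → a0 * s ^ ν ≤ μ * mixX (addF β s θ) (clsK φ dl R) := by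
    intro s hs
    have hlim1 := (eps n X (addF β s θ) (clsK φ dl R) χ (isClosed_addF hβ hθ s)
      (isClosed_clsK hφ hbd.closed) (INT.IsKahler.isClosedForm hχ)).const_mul (μ : ℝ)
    refine ge_of_tendsto hlim1 ?_
    filter_upwards [self_mem_nhdsWithin] with ε hε using step1 s ε hs hε
  -- contradiction
  have hμ : (0 : ℝ) ≤ μ := Nat.cast_nonneg μ
  obtain ⟨s, hs1, hs2⟩ := (hgr.and_eventually (eventually_gt_atTop
    (max 1 (μ * C₁ / a0)))).exists
  have hsp : 0 < s := lt_of_lt_of_le one_pos ((le_max_left _ _).trans hs2.le)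
  have h1 := step2 s hsp
  have h2 := h1.trans (mul_le_mul_of_nonneg_left hs1 hμ)
  have hsν : 0 < s ^ ν := pow_pos hsp ν
  have h3 : a0 * s ^ ν ≤ μ * C₁ / s * s ^ ν := by
    calc a0 * s ^ ν ≤ μ * (C₁ * s ^ ν / s) := h2
      _ = μ * C₁ / s * s ^ ν := by ring
  have h4 := le_of_mul_le_mul_right h3 hsν
  rw [le_div_iff₀ hsp] at h4
  have h5 : μ * C₁ / a0 < s := (le_max_right _ _).trans_lt hs2
  rw [div_lt_iff₀ ha0p] at h5
  linarith

end Vale.Agent.P281.H167.LC
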