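import Vale.Agent.P281.H167.LC.Loc

/-! P281, LC core: Laplacians of functions which are smooth on an open subset. -/

open scoped Manifold ContDiff ComplexOrder Topology
open Complex Set Filter MeasureTheory

set_option linter.all false

noncomputable section

namespace Vale.Agent.P281.H167.LC

open Vale.Agent.P272.K Vale.Agent.P272.K.AMP Vale.Agent.P299.D Vale.Agent.P299 Vale.Agent.P299.H882
open Vale.Agent.P281.H167.SA Vale.Agent.P281.H167.GM Vale.Agent.P281.H713.KD
open Vale.Agent.P281.H413.MFS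
open INT (IsDensity intX IsClosedForm)

variable {n M : ℕ} {X : Type} [TopologicalSpace X] [ChartedSpace (Cm n) X]
  [IsManifold 𝓘(ℂ, Cm n) ω X]

/-- near a point of `V`, `w` is a global smooth function -/
lemma ext_hess [T2Space X] {w : X → ℝ} {V : Set X} (hV : IsOpen V)
    (hw : ∀ (e : Chart n X) y, At e y → y ∈ V → ContDiffAt ℝ ∞ (fun z => w (e.symm z)) (e y))
    {y : X} (hyV : y ∈ V) : ∃ u : X → ℝ, SmoothFn (n := n) u ∧ ∀ᶠ z in 𝓝 y,
      ∀ e : Chart n X, At e z → hess w e (e z) = hess u e (e z) := by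
  obtain ⟨u, hu, V', hV'o, hyV', hV'V, huw⟩ := exists_ext (n := n) hV hyV (F := w)
    (fun z hz => ⟨chartAt (Cm n) z, at_chartAt (n := n) z, hw _ z (at_chartAt (n := n) z) hz⟩)
  refine ⟨u, hu, ?_⟩
  filter_upwards [hV'o.mem_nhds hyV'] with z hzV e' hz
  have h4 : Tendsto e'.symm (𝓝 (e' z)) (𝓝 z) := by
    have := e'.continuousAt_symm (e'.map_source hz.2)
    rwa [ContinuousAt, hz.left_inv] at this
  refine C2.cHess_congr ?_
  filter_upwards [h4.eventually (hV'o.mem_nhds hzV)] with a ha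
  exact (huw _ ha).symm

lemma lapX_def (g : D.FormM n X) (w : X → ℝ) (x : X) : lapX g w x =
    ((g (chartAt (Cm n) x) (chartAt (Cm n) x x))⁻¹ *
      hess w (chartAt (Cm n) x) (chartAt (Cm n) x x)).trace.re := rfl

lemma lapX_loc [T2Space X] {g : D.FormM n X} (hg : IsHermitian g) {w : X → ℝ} {V : Set X}
    (hV : IsOpen V)
    (hw : ∀ (e : Chart n X) y, At e y → y ∈ V → ContDiffAt ℝ ∞ (fun z => w (e.symm z)) (e y))
    {e : Chart n X} {y : X} (hy : At e y) (hyV : y ∈ V) :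
    lapX g w y = ((g e (e y))⁻¹ * hess w e (e y)).trace.re := by
  obtain ⟨u, hu, hev⟩ := ext_hess hV hw hyV
  have h1 := hev.self_of_nhds
  rw [lapX_def, h1 _ (at_chartAt (n := n) y), h1 e hy, ← lapX_def, lapX_eq hg hu hy]
  rfl

lemma cont_mul_lap [T2Space X] {g : D.FormM n X} (hg : IsHermitian g) {w : X → ℝ} {V : Set X}
    (hV : IsOpen V)
    (hw : ∀ (e : Chart n X) y, At e y → y ∈ V → ContDiffAt ℝ ∞ (fun z => w (e.symm z)) (e y))
    {η : X → ℝ} (hη : Continuous η) (hηV : ∀ x ∈ tsupport η, x ∈ V) :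
    Continuous fun x => η x * lapX g w x := by
  rw [continuous_iff_continuousAt]
  intro y
  by_cases hy : y ∈ tsupport η
  · obtain ⟨u, hu, hev⟩ := ext_hess hV hw (hηV y hy)
    have h1 : (fun x => η x * lapX g w x) =ᶠ[𝓝 y] fun x => η x * lapX g u x := by
      filter_upwards [hev] with z hz
      rw [lapX_def, hz _ (at_chartAt (n := n) z), ← lapX_def]
    refine ContinuousAt.congr ?_ h1.symm
    exact (hη.mul (INT.SmoothFn.continuous (smoothFn_lapX hg hu))).continuousAt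
  · have h1 : (fun x => η x * lapX g w x) =ᶠ[𝓝 y] fun _ => 0 := by
      have h2 : ∀ᶠ z in 𝓝 y, z ∉ tsupport η := (isClosed_tsupport η).isOpen_compl.mem_nhds hy
      filter_upwards [h2] with z hz
      rw [image_eq_zero_of_notMem_tsupport hz, zero_mul]
    exact ContinuousAt.congr continuousAt_const h1.symm

variable {Dv : Fin M → Set X} {r : Fin M → X → ℝ} {χ : D.FormM n X} {p μ : ℕ} {K : Fin M → ℕ}
  {N₀ N₁ : D.FormM n X → X → ℝ}

/-- `i∂∂̄v` where both are positive -/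
lemma hess_vN [T2Space X] (hχ : IsKahler χ) (hN : IsDecPair Dv r χ p μ K N₀ N₁) {u : X → ℝ}
    (hu : ∀ x, 0 < N₀ χ x → 0 < N₁ χ x → u x = Real.log (N₁ χ x) - Real.log (N₀ χ x))
    {e : Chart n X} {x : X} (hx : At e x) (h0 : 0 < N₀ χ x) (h1 : 0 < N₁ χ x) :
    hess (vN χ N₀ N₁) e (e x) = ((Real.exp (u x) / (1 + Real.exp (u x)) ^ 2 : ℝ) : ℂ) •
      Matrix.vecMulVec (xi u e (e x)) (star (xi u e (e x))) := by
  have c0 := INT.SmoothFn.continuous (hN.smooth χ hχ).1
  have c1 := INT.SmoothFn.continuous (hN.smooth χ hχ).2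
  have hVo : IsOpen {x | 0 < N₀ χ x ∧ 0 < N₁ χ x} :=
    (isOpen_lt continuous_const c0).inter (isOpen_lt continuous_const c1)
  have h4 : Tendsto e.symm (𝓝 (e x)) (𝓝 x) := by
    have := e.continuousAt_symm (e.map_source hx.2)
    rwa [ContinuousAt, hx.left_inv] at this
  have hev : (fun z => vN χ N₀ N₁ (e.symm z)) =ᶠ[𝓝 (e x)] fun z =>
      Real.log (1 + Real.exp (u (e.symm z))) := by
    filter_upwards [h4.eventually (hVo.mem_nhds ⟨h0, h1⟩)] with z hz
    unfold vN
    rw [hu _ hz.1 hz.2, Real.exp_sub, Real.exp_log hz.2, Real.exp_log hz.1]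
  have hus : ContDiffAt ℝ ∞ (fun z => u (e.symm z)) (e x) := smooth_uN hχ hN hu e x hx h0 h1
  have hu2 : ContDiffAt ℝ 2 (fun z => u (e.symm z)) (e x) :=
    hus.of_le (by exact WithTop.coe_le_coe.2 le_top)
  have hz0 : cHess (fun z => u (e.symm z)) (e x) = 0 := hess_uN hχ hN hu hx h0 h1
  have hd1 : ∀ s : ℝ, HasDerivAt (fun t : ℝ => Real.log (1 + Real.exp t))
      (Real.exp s / (1 + Real.exp s)) s := by
    intro s
    have hp : 1 + Real.exp s ≠ 0 := by positivity
    exact ((Real.hasDerivAt_exp s).const_add 1).log hp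
  have hd2 : ∀ s : ℝ, HasDerivAt (fun t : ℝ => Real.exp t / (1 + Real.exp t))
      (Real.exp s / (1 + Real.exp s) ^ 2) s := by
    intro s
    have hp : 1 + Real.exp s ≠ 0 := by positivity
    have h5 := (Real.hasDerivAt_exp s).div ((Real.hasDerivAt_exp s).const_add 1) hp
    refine h5.congr_deriv ?_
    congr 1
    ring
  show cHess (fun z => vN χ N₀ N₁ (e.symm z)) (e x) = _
  rw [C2.cHess_congr hev]
  ext j k
  rw [C2.cHess_comp (ψ := fun t => Real.log (1 + Real.exp t))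
    (ψ₁ := fun t => Real.exp t / (1 + Real.exp t)) (Eventually.of_forall hd1) (hd2 _) hu2 j k, hz0,
    C2.dzb_real k (hu2.differentiableAt (by norm_num))]
  simp only [Matrix.zero_apply, mul_zero, zero_add, Matrix.smul_apply, Matrix.vecMulVec_apply,
    smul_eq_mul, Pi.star_apply, xi, hx.left_inv]
  rfl

/-- the Laplacian of `v` where both are positive -/
lemma lap_vN [T2Space X] (hχ : IsKahler χ) (hN : IsDecPair Dv r χ p μ K N₀ N₁) {u : X → ℝ}
    (hu : ∀ x, 0 < N₀ χ x → 0 < N₁ χ x → u x = Real.log (N₁ χ x) - Real.log (N₀ χ x))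
    {g : D.FormM n X} (hg : IsHermitian g)
    {e : Chart n X} {x : X} (hx : At e x) (h0 : 0 < N₀ χ x) (h1 : 0 < N₁ χ x) :
    lapX g (vN χ N₀ N₁) x = Real.exp (u x) / (1 + Real.exp (u x)) ^ 2 *
      qf (g e (e x)) (xi u e (e x)) := by
  have c0 := INT.SmoothFn.continuous (hN.smooth χ hχ).1
  rw [lapX_loc (V := {x | 0 < N₀ χ x}) hg (isOpen_lt continuous_const c0)
    (fun e y hy hyV => smooth_vN hχ hN e y hy hyV) hx h0, hess_vN hχ hN hu hx h0 h1,
    Matrix.mul_smul, Matrix.trace_smul, smul_eq_mul, Complex.re_ofReal_mul]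
  rfl

lemma lap_vN_nonneg [T2Space X] (hχ : IsKahler χ) (hN : IsDecPair Dv r χ p μ K N₀ N₁)
    {g : D.FormM n X} (hg : IsHermitian g) {x : X} (h0 : 0 < N₀ χ x) :
    0 ≤ lapX g (vN χ N₀ N₁) x := by
  have hx := at_chartAt (n := n) x
  rw [lapX_def]
  exact (Complex.le_def.1 (C2.trace_mul_nonneg (hg.posDef _ x hx).inv.posSemidef
    (psd_vN hχ hN hx h0))).1

end Vale.Agent.P281.H167.LC
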