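import Vale.Agent.P281.H167.LC.Iface
import Vale.Agent.P281.H413.MFS.Cut
import Vale.Agent.P281.H455.KD.Loc

/-! P281, LC core: the function `v = log (1 + N₁ / N₀)` is plurisubharmonic on `{N₀ > 0}`. -/

open scoped Manifold ContDiff ComplexOrder Topology
open Complex Set Filter MeasureTheory

set_option linter.all false

noncomputable section

namespace Vale.Agent.P281.H167.LC

open Vale.Agent.P272.K Vale.Agent.P272.K.AMP Vale.Agent.P299.D Vale.Agent.P299 Vale.Agent.P299.H882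
open Vale.Agent.P281.H167.SA Vale.Agent.P281.H167.GM Vale.Agent.P281.H713.KD
open Vale.Agent.P281.H413.MFS
open INT (IsDensity intX IsClosedForm)

variable {n M : ℕ} {X : Type} [TopologicalSpace X] [ChartedSpace (Cm n) X]
  [IsManifold 𝓘(ℂ, Cm n) ω X]

lemma isClosed_psd : IsClosed {A : Matrix (Fin n) (Fin n) ℂ | A.PosSemidef} := by
  have h1 : {A : Matrix (Fin n) (Fin n) ℂ | A.PosSemidef} =
      {A | A.conjTranspose = A} ∩ ⋂ x : Fin n → ℂ, {A | 0 ≤ star x ⬝ᵥ (A.mulVec x)} := by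
    ext A
    simp only [mem_setOf_eq, mem_inter_iff, mem_iInter]
    rw [Matrix.posSemidef_iff_dotProduct_mulVec]
    rfl
  rw [h1]
  refine IsClosed.inter (isClosed_eq (continuous_id.matrix_conjTranspose) continuous_id)
    (isClosed_iInter fun x => ?_)
  have h2 : Continuous fun A : Matrix (Fin n) (Fin n) ℂ => star x ⬝ᵥ (A.mulVec x) :=
    Continuous.dotProduct continuous_const (continuous_id.matrix_mulVec continuous_const)
  exact isClosed_le continuous_const h2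

/-- closure: a closed condition on the Hessian, true on a dense set -/
lemma hess_mem [T2Space X] {w : X → ℝ} {V : Set X} (hV : IsOpen V) {𝒪 : Set X} (h𝒪 : Dense 𝒪)
    (hw : ∀ (e : Chart n X) y, At e y → y ∈ V → ContDiffAt ℝ ∞ (fun z => w (e.symm z)) (e y))
    {C : Set (Matrix (Fin n) (Fin n) ℂ)} (hC : IsClosed C)
    (hCc : ∀ (A : D.FormM n X), IsForm A → ∀ (e e' : Chart n X) (x : X), At e x → At e' x →
      A e' (e' x) ∈ C → A e (e x) ∈ C)
    (hP : ∀ y ∈ V, y ∈ 𝒪 → ∃ e' : Chart n X, At e' y ∧ hess w e' (e' y) ∈ C) {e : Chart n X} {y : X}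
    (hy : At e y) (hyV : y ∈ V) : hess w e (e y) ∈ C := by
  obtain ⟨u, hu, V', hV'o, hyV', hV'V, huw⟩ := exists_ext (n := n) hV hyV (F := w)
    (fun z hz => ⟨chartAt (Cm n) z, at_chartAt (n := n) z, hw _ z (at_chartAt (n := n) z) hz⟩)
  have hev : ∀ (e' : Chart n X) z, At e' z → z ∈ V' →
      (fun a => w (e'.symm a)) =ᶠ[𝓝 (e' z)] fun a => u (e'.symm a) := by
    intro e' z hz hzV
    have h4 : Tendsto e'.symm (𝓝 (e' z)) (𝓝 z) := by
      have := e'.continuousAt_symm (e'.map_source hz.2)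
      rwa [ContinuousAt, hz.left_inv] at this
    filter_upwards [h4.eventually (hV'o.mem_nhds hzV)] with a ha
    exact (huw _ ha).symm
  have hcong : ∀ (e' : Chart n X) z, At e' z → z ∈ V' → hess w e' (e' z) = hess u e' (e' z) :=
    fun e' z hz hzV => C2.cHess_congr (hev e' z hz hzV)
  rw [hcong e y hy hyV']
  have hform : IsForm (hess (n := n) u) := (INT.isClosedForm_cHess hu).form
  have hcont : ContinuousAt (fun z => hess u e z) (e y) := by
    refine continuousAt_pi.2 fun i => continuousAt_pi.2 fun j => ?_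
    exact ((INT.isClosedForm_cHess hu).smooth e y hy i j).continuousAt
  have hcont2 : ContinuousAt (fun z : X => hess u e (e z)) y :=
    ContinuousAt.comp (f := fun z : X => e z) (g := fun z => hess u e z) hcont
      (e.continuousAt hy.2)
  refine hC.mem_of_frequently_of_tendsto ?_ hcont2
  have h5 : ∃ᶠ z in 𝓝 y, z ∈ 𝒪 := mem_closure_iff_frequently.1 (h𝒪 y)
  have h6 : ∀ᶠ z in 𝓝 y, z ∈ V' ∧ z ∈ e.source :=
    inter_mem (hV'o.mem_nhds hyV') (e.open_source.mem_nhds hy.2)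
  refine (h5.and_eventually h6).mono ?_
  rintro z ⟨hz1, hz2, hz3⟩
  obtain ⟨e', he', hm⟩ := hP z (hV'V hz2) hz1
  rw [hcong e' z he' hz2] at hm
  exact hCc _ hform e e' z ⟨hy.1, hz3⟩ he' hm

variable {Dv : Fin M → Set X} {r : Fin M → X → ℝ} {χ : D.FormM n X} {p μ : ℕ} {K : Fin M → ℕ}
  {N₀ N₁ : D.FormM n X → X → ℝ}

/-- the function `v` -/
def vN (χ : D.FormM n X) (N₀ N₁ : D.FormM n X → X → ℝ) (x : X) : ℝ :=
  Real.log (1 + N₁ χ x / N₀ χ x)

lemma smooth_vN (hχ : IsKahler χ) (hN : IsDecPair Dv r χ p μ K N₀ N₁) (e : Chart n X) (x : X)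
    (hx : At e x) (h0 : 0 < N₀ χ x) : ContDiffAt ℝ ∞ (fun z => vN χ N₀ N₁ (e.symm z)) (e x) := by
  have h1 := (hN.smooth χ hχ).1 e x hx
  have h2 := (hN.smooth χ hχ).2 e x hx
  unfold vN
  refine ContDiffAt.log (contDiffAt_const.add (h2.div h1 ?_)) ?_
  · rw [hx.left_inv]; exact h0.ne'
  · rw [hx.left_inv]
    have := (hN.nonneg χ x hχ).2
    positivity

lemma smooth_uN (hχ : IsKahler χ) (hN : IsDecPair Dv r χ p μ K N₀ N₁) {u : X → ℝ}
    (hu : ∀ x, 0 < N₀ χ x → 0 < N₁ χ x → u x = Real.log (N₁ χ x) - Real.log (N₀ χ x))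
    (e : Chart n X) (x : X) (hx : At e x) (h0 : 0 < N₀ χ x) (h1 : 0 < N₁ χ x) :
    ContDiffAt ℝ ∞ (fun z => u (e.symm z)) (e x) := by
  have c0 := INT.SmoothFn.continuous (hN.smooth χ hχ).1
  have c1 := INT.SmoothFn.continuous (hN.smooth χ hχ).2
  have h4 : Tendsto e.symm (𝓝 (e x)) (𝓝 x) := by
    have := e.continuousAt_symm (e.map_source hx.2)
    rwa [ContinuousAt, hx.left_inv] at this
  have h2 : ContDiffAt ℝ ∞ (fun z => Real.log (N₁ χ (e.symm z)) - Real.log (N₀ χ (e.symm z)))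
      (e x) := by
    refine (((hN.smooth χ hχ).2 e x hx).log ?_).sub (((hN.smooth χ hχ).1 e x hx).log ?_)
    · rw [hx.left_inv]; exact h1.ne'
    · rw [hx.left_inv]; exact h0.ne'
  refine h2.congr_of_eventuallyEq ?_
  filter_upwards [h4.eventually (c0.continuousAt.eventually (lt_mem_nhds h0)),
    h4.eventually (c1.continuousAt.eventually (lt_mem_nhds h1))] with z hz0 hz1
  exact hu _ hz0 hz1

/-- the local form on the dense set -/
lemma loc_form (hχ : IsKahler χ) (hN : IsDecPair Dv r χ p μ K N₀ N₁) :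
    ∃ 𝒪 : Set X, Dense 𝒪 ∧ ∀ x ∈ 𝒪, 0 < N₀ χ x → ∃ (e : Chart n X) (c₀ c₁ : Cm n → ℂ)
      (P : Cm n → ℝ), At e x ∧ AnalyticAt ℂ c₀ (e x) ∧ AnalyticAt ℂ c₁ (e x) ∧
      ∀ᶠ z in 𝓝 (e x), c₀ z ≠ 0 ∧ 0 < P z ∧ N₀ χ (e.symm z) = ‖c₀ z‖ ^ 2 * P z ∧
        N₁ χ (e.symm z) = ‖c₁ z‖ ^ 2 * P z := by
  obtain ⟨𝒪, h𝒪, hg⟩ := hN.good
  refine ⟨𝒪, h𝒪, fun x hx h0 => ?_⟩
  obtain ⟨C, hC⟩ := hg 1 one_pos
  obtain ⟨-, e, b, c₀, c₁, he, hb, h1, h2, h3, -⟩ := hC x hx
  have c0 := INT.SmoothFn.continuous (hN.smooth χ hχ).1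
  have h4 : Tendsto e.symm (𝓝 (e x)) (𝓝 x) := by
    have := e.continuousAt_symm (e.map_source he.2)
    rwa [ContinuousAt, he.left_inv] at this
  refine ⟨e, c₀, c₁, fun z => (∏ i, r i (e.symm z) ^ K i) * gramD (b z) (χ e z) ^ μ, he, h1, h2, ?_⟩
  filter_upwards [h3 χ hχ, h4.eventually (c0.continuousAt.eventually (lt_mem_nhds h0))] with z hz hp
  have e1 : N₀ χ (e.symm z) = ‖c₀ z‖ ^ 2 *
      ((∏ i, r i (e.symm z) ^ K i) * gramD (b z) (χ e z) ^ μ) := by rw [hz.1]; ring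
  have e2 : N₁ χ (e.symm z) = ‖c₁ z‖ ^ 2 *
      ((∏ i, r i (e.symm z) ^ K i) * gramD (b z) (χ e z) ^ μ) := by rw [hz.2]; ring
  have hc : c₀ z ≠ 0 := by
    intro h
    rw [e1, h] at hp
    simp at hp
  refine ⟨hc, ?_, e1, e2⟩
  rw [e1] at hp
  exact pos_of_mul_pos_right hp (by positivity)

lemma psd_vN [T2Space X] (hχ : IsKahler χ) (hN : IsDecPair Dv r χ p μ K N₀ N₁) {e : Chart n X}
    {x : X} (hx : At e x) (h0 : 0 < N₀ χ x) : (hess (vN χ N₀ N₁) e (e x)).PosSemidef := by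
  have c0 := INT.SmoothFn.continuous (hN.smooth χ hχ).1
  obtain ⟨𝒪, h𝒪, hl⟩ := loc_form hχ hN
  refine hess_mem (V := {x | 0 < N₀ χ x}) (isOpen_lt continuous_const c0) h𝒪
    (fun e y hy hyV => smooth_vN hχ hN e y hy hyV) isClosed_psd
    (fun A hA e e' x he he' h => psd_chart hA he he' h) ?_ hx h0
  intro y hyV hyO
  obtain ⟨e', c₀, c₁, P, he', h1, h2, h3⟩ := hl y hyO hyV
  refine ⟨e', he', ?_⟩
  have hc0 : c₀ (e' y) ≠ 0 := h3.self_of_nhds.1
  have hf : AnalyticAt ℂ (fun z => c₁ z / c₀ z) (e' y) := h2.div h1 hc0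
  have e1 : (fun z => vN χ N₀ N₁ (e'.symm z)) =ᶠ[𝓝 (e' y)] fun z =>
      Real.log (H455.KD.uv (fun z => c₁ z / c₀ z) (fun _ => 0) 1 z) := by
    filter_upwards [h3] with z hz
    obtain ⟨hz0, hzP, hz1, hz2⟩ := hz
    unfold vN H455.KD.uv
    rw [hz1, hz2]
    congr 1
    rw [norm_div, Real.exp_zero, mul_one, div_pow, add_comm]
    congr 1
    have : ‖c₀ z‖ ≠ 0 := norm_ne_zero_iff.2 hz0
    field_simp
  show (cHess (fun z => vN χ N₀ N₁ (e'.symm z)) (e' y)).PosSemidef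
  rw [C2.cHess_congr e1, H455.KD.cHess_log_uv hf contDiffAt_const one_pos]
  have hu0 := H455.KD.uv_pos (g := fun z => c₁ z / c₀ z) (ψ := fun _ => (0 : ℝ)) one_pos (e' y)
  have e2 : cHess (fun _ : Cm n => (0 : ℝ)) (e' y) = 0 := C2.cHess_const 0
  rw [e2, smul_zero, zero_add]
  exact psd_real_smul (Matrix.posSemidef_vecMulVec_self_star _) (by positivity)

lemma hess_uN [T2Space X] (hχ : IsKahler χ) (hN : IsDecPair Dv r χ p μ K N₀ N₁) {u : X → ℝ}
    (hu : ∀ x, 0 < N₀ χ x → 0 < N₁ χ x → u x = Real.log (N₁ χ x) - Real.log (N₀ χ x))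
    {e : Chart n X} {x : X} (hx : At e x) (h0 : 0 < N₀ χ x) (h1 : 0 < N₁ χ x) :
    hess u e (e x) = 0 := by
  have c0 := INT.SmoothFn.continuous (hN.smooth χ hχ).1
  have c1 := INT.SmoothFn.continuous (hN.smooth χ hχ).2
  obtain ⟨𝒪, h𝒪, hl⟩ := loc_form hχ hN
  have hVo : IsOpen {x | 0 < N₀ χ x ∧ 0 < N₁ χ x} :=
    (isOpen_lt continuous_const c0).inter (isOpen_lt continuous_const c1)
  have key : hess u e (e x) ∈ ({0} : Set (Matrix (Fin n) (Fin n) ℂ)) := by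
    refine hess_mem (V := {x | 0 < N₀ χ x ∧ 0 < N₁ χ x}) hVo h𝒪
      (fun e y hy hyV => smooth_uN hχ hN hu e y hy hyV.1 hyV.2) isClosed_singleton ?_ ?_ hx ⟨h0, h1⟩
    · intro A hA e e' x he he' h
      rw [mem_singleton_iff] at h ⊢
      rw [hA e e' x he he', h]
      simp
    · intro y hyV hyO
      obtain ⟨e', c₀, c₁, P, he', h1, h2, h3⟩ := hl y hyO hyV.1
      refine ⟨e', he', ?_⟩
      rw [mem_singleton_iff]
      have h4 : Tendsto e'.symm (𝓝 (e' y)) (𝓝 y) := by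
        have := e'.continuousAt_symm (e'.map_source he'.2)
        rwa [ContinuousAt, he'.left_inv] at this
      have h5 : ∀ᶠ z in 𝓝 (e' y), c₁ z ≠ 0 ∧ 0 < N₀ χ (e'.symm z) ∧ 0 < N₁ χ (e'.symm z) := by
        filter_upwards [h3, h4.eventually (hVo.mem_nhds hyV)] with z hz hzV
        refine ⟨fun h => ?_, hzV.1, hzV.2⟩
        have := hzV.2
        rw [hz.2.2.2, h] at this
        simp at this
      have e1 : (fun z => u (e'.symm z)) =ᶠ[𝓝 (e' y)] fun z =>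
          Real.log (‖c₁ z‖ ^ 2) - Real.log (‖c₀ z‖ ^ 2) := by
        filter_upwards [h3, h5] with z hz hz'
        obtain ⟨a1, a2, a3, a4⟩ := hz
        have hn0 : ‖c₀ z‖ ^ 2 ≠ 0 := by have := norm_ne_zero_iff.2 a1; positivity
        have hn1 : ‖c₁ z‖ ^ 2 ≠ 0 := by have := norm_ne_zero_iff.2 hz'.1; positivity
        rw [hu _ hz'.2.1 hz'.2.2, a3, a4, Real.log_mul hn1 a2.ne', Real.log_mul hn0 a2.ne']
        ring
      have k0 : c₀ (e' y) ≠ 0 := h3.self_of_nhds.1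
      have k1 : c₁ (e' y) ≠ 0 := h5.self_of_nhds.1
      have s0 : ContDiffAt ℂ ω c₀ (e' y) := h1.contDiffAt
      have s1 : ContDiffAt ℂ ω c₁ (e' y) := h2.contDiffAt
      have l0 : ContDiffAt ℝ 2 (fun z => Real.log (‖c₀ z‖ ^ 2)) (e' y) :=
        (((s0.restrict_scalars ℝ).of_le (by simp : (2 : WithTop ℕ∞) ≤ ω)).norm_sq ℝ).log
          (by have := norm_ne_zero_iff.2 k0; positivity)
      have l1 : ContDiffAt ℝ 2 (fun z => Real.log (‖c₁ z‖ ^ 2)) (e' y) :=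
        (((s1.restrict_scalars ℝ).of_le (by simp : (2 : WithTop ℕ∞) ≤ ω)).norm_sq ℝ).log
          (by have := norm_ne_zero_iff.2 k1; positivity)
      show cHess (fun z => u (e'.symm z)) (e' y) = 0
      rw [C2.cHess_congr e1, C2.cHess_sub l1 l0, cHess_log_norm_sq s0 k0, cHess_log_norm_sq s1 k1,
        sub_zero]
  exact key

end Vale.Agent.P281.H167.LC
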